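import Vale.Agent.P338.Red.Prim

/-!
# P338 reduction: the rulers of the reduction and the machines working on one field

A field consists of `8 n` bits.
-/

set_option linter.unusedSectionVars false

namespace Vale.Agent.P338.Red

open Vale.Agent.P338

/-- the rulers -/
inductive Rl
  | b | f | t | u | s | r | s2 | r2
  deriving DecidableEq

instance : Fintype Rl :=
  ⟨{Rl.b, Rl.f, Rl.t, Rl.u, Rl.s, Rl.r, Rl.s2, Rl.r2}, by intro x; cases x <;> simp⟩

/-- lengths of the rulers -/
def len (n : ℕ) : Rl → ℕ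
  | Rl.b => n
  | Rl.f => n
  | Rl.s => n
  | Rl.r => n
  | Rl.t => 2 * n
  | Rl.u => 2 * n
  | Rl.s2 => 2 * n
  | Rl.r2 => 2 * n

variable {κ S : Type} [Alph S] [DecidableEq κ]

/-- symbols of a list of bits -/
def bits (l : List Bool) : List (S × Bool) := l.map bt

/-- the zero field -/
def zf (n : ℕ) : List Bool := List.replicate (8 * n) false
/-- the field of the kernels: the number `2 ^ (n - 1)` -/
def onf (n : ℕ) : List Bool := List.replicate (7 * n) false ++ true :: List.replicate (n - 1) false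
/-- `m` zero fields -/
def zfs (n m : ℕ) : List Bool := List.replicate (8 * n * m) false

/-- write a zero field -/
noncomputable def zeroF (x : κ) : PM (Rl ⊕ κ) (S × Bool) :=
  rep 8 (forRuler Rl.b (pushK x (bt false)))

/-- write `1 0 ... 0` (`n` bits) -/
noncomputable def tailB (x : κ) : PM (Rl ⊕ κ) (S × Bool) :=
  forFirst Rl.b (pushK x (bt true)) (pushK x (bt false))

/-- write the field `onf` -/
noncomputable def oneF (x : κ) : PM (Rl ⊕ κ) (S × Bool) :=
  seq (rep 7 (forRuler Rl.b (pushK x (bt false)))) (tailB x)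

/-- write a data field: `6 n` zeros, `n` bits copied from tape `i`, then `1 0 ... 0` -/
noncomputable def dataF (i x : κ) : PM (Rl ⊕ κ) (S × Bool) :=
  seq (rep 6 (forRuler Rl.b (pushK x (bt false)))) (seq (forRuler Rl.b (cpK i x)) (tailB x))

/-- skip a field on tape `i` -/
noncomputable def skipF (i : κ) : PM (Rl ⊕ κ) (S × Bool) :=
  rep 8 (forRuler Rl.b (mvK i Move.right))

/-- copy a field from tape `i` to tape `x` -/
noncomputable def copyF (i x : κ) : PM (Rl ⊕ κ) (S × Bool) :=
  rep 8 (forRuler Rl.b (cpK i x))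

theorem flatMap_const_replicate {α : Type} (m c : ℕ) (g : α) :
    (List.range m).flatMap (fun _ => List.replicate c g) = List.replicate (m * c) g := by
  induction m with
  | zero => simp
  | succ m ih =>
    rw [List.range_succ, List.flatMap_append, ih]
    simp only [List.flatMap_cons, List.flatMap_nil, List.append_nil]
    rw [← List.replicate_add]
    congr 1
    ring

theorem flatMap_sl {Γ : Type} (t : Tp Γ) (m c : ℕ) :
    (List.range m).flatMap (fun j => (t.fw (j * c)).sl c) = t.sl (m * c) := by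
  induction m with
  | zero => simp [Tp.sl]
  | succ m ih =>
    rw [List.range_succ, List.flatMap_append, ih]
    simp only [List.flatMap_cons, List.flatMap_nil, List.append_nil]
    rw [← Tp.sl_add]
    congr 1
    ring

theorem sl_one {Γ : Type} (t : Tp Γ) : t.sl 1 = [t.rd] := by simp [Tp.sl, Tp.rd]

variable {x i₁ i₂ i₃ : κ}

theorem doesS_zeros (n : ℕ) (hn : 1 ≤ n) (d : Dist4 x i₁ i₂ i₃) (c : ℕ) :
    DoesS (S := S) (len n) (rep c (forRuler Rl.b (pushK x (bt false)))) [Rl.b] x i₁ i₂ i₃ 0 0 0
      (fun _ _ _ => bits (List.replicate (c * n) false)) (c * (5 * n + 2) + 1) := by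
  have h1 := doesS_forRuler d Rl.b (by simpa [len] using hn) (by simp)
    (doesS_push (len n) d (bt false : S × Bool))
  have h2 := doesS_rep d c h1
  refine h2.congr (fun _ h => h) (by simp) (by simp) (by simp) (fun t₁ t₂ t₃ => ?_) ?_
  · have e1 : ∀ m : ℕ, (List.range m).flatMap (fun _ => [(bt false : S × Bool)])
        = List.replicate m (bt false) := by
      intro m
      have := flatMap_const_replicate m 1 (bt false : S × Bool)
      simpa using this
    simp only [e1, len, flatMap_const_replicate, bits, List.map_replicate]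
  · simp only [len]
    have : n * (1 + 4) = 5 * n := by ring
    rw [this]

theorem doesS_zeroF (n : ℕ) (hn : 1 ≤ n) (d : Dist4 x i₁ i₂ i₃) :
    DoesS (S := S) (len n) (zeroF x) [Rl.b] x i₁ i₂ i₃ 0 0 0 (fun _ _ _ => bits (zf n))
      (40 * n + 17) :=
  (doesS_zeros n hn d 8).congr (fun _ h => h) rfl rfl rfl (fun _ _ _ => rfl) (by omega)

theorem doesS_tailB (n : ℕ) (hn : 1 ≤ n) (d : Dist4 x i₁ i₂ i₃) :
    DoesS (S := S) (len n) (tailB x) [Rl.b] x i₁ i₂ i₃ 0 0 0
      (fun _ _ _ => bits (true :: List.replicate (n - 1) false)) (6 * n + 2) := by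
  have h1 := doesS_forFirst d Rl.b (by simpa [len] using hn) (by simp) (by simp)
    (doesS_push (len n) d (bt true : S × Bool)) (doesS_push (len n) d (bt false : S × Bool))
  refine h1.congr (by simp) (by simp) (by simp) (by simp) (fun t₁ t₂ t₃ => ?_) ?_
  · obtain ⟨m, rfl⟩ : ∃ m, n = m + 1 := ⟨n - 1, by omega⟩
    simp only [len, Nat.add_sub_cancel]
    rw [List.range_succ_eq_map, List.flatMap_cons, List.flatMap_map]
    simp only [if_true, Nat.succ_ne_zero, if_false, bits, List.map_cons,
      List.map_replicate]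
    have := flatMap_const_replicate m 1 (bt false : S × Bool)
    simp only [List.replicate_one, Nat.mul_one] at this
    rw [this]
    rfl
  · simp only [len]
    have : n * (max 1 1 + 5) = 6 * n := by simp; ring
    omega

theorem doesS_oneF (n : ℕ) (hn : 1 ≤ n) (d : Dist4 x i₁ i₂ i₃) :
    DoesS (S := S) (len n) (oneF x) [Rl.b] x i₁ i₂ i₃ 0 0 0 (fun _ _ _ => bits (onf n))
      (41 * n + 17) :=
  (doesS_seq d (doesS_zeros n hn d 7) (doesS_tailB n hn d)).congr (by simp) rfl rfl rfl
    (fun _ _ _ => by simp [bits, onf]) (by omega)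

theorem doesS_cpB (n : ℕ) (hn : 1 ≤ n) (d : Dist4 x i₁ i₂ i₃) (c : ℕ) :
    DoesS (S := S) (len n) (rep c (forRuler Rl.b (cpK i₁ x))) [Rl.b] x i₁ i₂ i₃ (c * n) 0 0
      (fun t₁ _ _ => t₁.sl (c * n)) (c * (5 * n + 2) + 1) := by
  have h1 := doesS_forRuler d Rl.b (by simpa [len] using hn) (by simp)
    (doesS_cp1 (S := S) (len n) d)
  have h2 := doesS_rep d c h1
  refine h2.congr (fun _ h => h) (by simp [len]) (by simp) (by simp) (fun t₁ t₂ t₃ => ?_) ?_
  · simp only [len, Nat.mul_one, ← sl_one]
    have e1 : ∀ t : Tp (S × Bool), (List.range n).flatMap (fun j => (t.fw j).sl 1) = t.sl n := by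
      intro t
      have := flatMap_sl t n 1
      simpa using this
    simp only [e1]
    exact flatMap_sl t₁ c n
  · simp only [len]
    have : n * (1 + 4) = 5 * n := by ring
    rw [this]

theorem doesS_copyF (n : ℕ) (hn : 1 ≤ n) (d : Dist4 x i₁ i₂ i₃) :
    DoesS (S := S) (len n) (copyF i₁ x) [Rl.b] x i₁ i₂ i₃ (8 * n) 0 0
      (fun t₁ _ _ => t₁.sl (8 * n)) (40 * n + 17) :=
  (doesS_cpB n hn d 8).congr (fun _ h => h) rfl rfl rfl (fun _ _ _ => rfl) (by omega)

theorem doesS_skipF (n : ℕ) (hn : 1 ≤ n) (d : Dist4 x i₁ i₂ i₃) :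
    DoesS (S := S) (len n) (skipF i₁) [Rl.b] x i₁ i₂ i₃ (8 * n) 0 0
      (fun _ _ _ => []) (40 * n + 17) := by
  have h1 := doesS_forRuler d Rl.b (by simpa [len] using hn) (by simp)
    (doesS_mv1 (S := S) (len n) d)
  have h2 := doesS_rep d 8 h1
  refine h2.congr (fun _ h => h) (by simp [len]) (by simp) (by simp) (fun t₁ t₂ t₃ => ?_) ?_
  · simp
  · simp only [len]
    omega

theorem doesS_dataF (n : ℕ) (hn : 1 ≤ n) (d : Dist4 x i₁ i₂ i₃) :
    DoesS (S := S) (len n) (dataF i₁ x) [Rl.b] x i₁ i₂ i₃ n 0 0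
      (fun t₁ _ _ => bits (List.replicate (6 * n) false) ++ t₁.sl n
        ++ bits (true :: List.replicate (n - 1) false)) (41 * n + 17) := by
  have h1 := doesS_forRuler d Rl.b (by simpa [len] using hn) (by simp)
    (doesS_cp1 (S := S) (len n) d)
  have h := doesS_seq d (doesS_zeros n hn d 6) (doesS_seq d h1 (doesS_tailB n hn d))
  refine h.congr (by simp) (by simp [len]) (by simp) (by simp) (fun t₁ t₂ t₃ => ?_) ?_
  · simp only [len, Nat.mul_one, ← sl_one, Tp.fw_zero]
    have e1 : ∀ t : Tp (S × Bool), (List.range n).flatMap (fun j => (t.fw j).sl 1) = t.sl n := by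
      intro t
      have := flatMap_sl t n 1
      simpa using this
    rw [e1, List.append_assoc]
  · simp only [len]
    omega

end Vale.Agent.P338.Red
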