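import Vale.Agent.P338.Red.Ruler

/-!
# P338 reduction: basic operations on the main tapes and their effects
-/

set_option linter.unusedSectionVars false

namespace Vale.Agent.P338.Red

open Vale.Agent.P338

variable {ρ κ S : Type} [Alph S] [DecidableEq ρ] [DecidableEq κ]

/-! ### operations on one tape -/

/-- write the list `l` from the head on, moving right -/
def Tp.wr {Γ : Type} (t : Tp Γ) (l : List Γ) : Tp Γ :=
  ⟨fun j => if j < t.h then t.c j else l.getD (j - t.h) (t.c j), t.h + l.length⟩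

/-- move the head right by `a` -/
def Tp.fw {Γ : Type} (t : Tp Γ) (a : ℕ) : Tp Γ := ⟨t.c, t.h + a⟩

/-- move the head left by `a` -/
def Tp.bw {Γ : Type} (t : Tp Γ) (a : ℕ) : Tp Γ := ⟨t.c, t.h - a⟩

/-- the `a` symbols from the head on -/
def Tp.sl {Γ : Type} (t : Tp Γ) (a : ℕ) : List Γ := (List.range a).map (fun x => t.c (t.h + x))

theorem Tp.wr_nil {Γ : Type} (t : Tp Γ) : t.wr [] = t := by
  apply Tp.ext'
  · funext j
    simp [Tp.wr]
  · simp [Tp.wr]

theorem Tp.wr_h {Γ : Type} (t : Tp Γ) (l : List Γ) : (t.wr l).h = t.h + l.length := rfl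

theorem Tp.wr_c {Γ : Type} (t : Tp Γ) (l : List Γ) (j : ℕ) :
    (t.wr l).c j = if j < t.h then t.c j else l.getD (j - t.h) (t.c j) := rfl

theorem Tp.wr_wr {Γ : Type} (t : Tp Γ) (l₁ l₂ : List Γ) : (t.wr l₁).wr l₂ = t.wr (l₁ ++ l₂) := by
  apply Tp.ext'
  · funext j
    rw [Tp.wr_c, Tp.wr_c, Tp.wr_c, Tp.wr_h]
    by_cases h1 : j < t.h
    · rw [if_pos (by omega), if_pos h1, if_pos h1]
    · rw [if_neg h1, if_neg h1]
      by_cases h2 : j < t.h + l₁.length
      · rw [if_pos h2, List.getD_append _ _ _ _ (by omega)]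
      · rw [if_neg h2, List.getD_append_right _ _ _ _ (by omega)]
        rw [List.getD_eq_default l₁ _ (by omega)]
        congr 1
        omega
  · simp [Tp.wr_h, Nat.add_assoc]

theorem Tp.act_right {Γ : Type} (t : Tp Γ) (g : Γ) : t.act g Move.right = t.wr [g] := by
  apply Tp.ext'
  · funext j
    simp only [Tp.act, Tp.wr, Function.update_apply]
    by_cases h1 : j = t.h
    · subst h1; simp
    · rw [if_neg h1]
      by_cases h2 : j < t.h
      · rw [if_pos h2]
      · rw [if_neg h2, List.getD_eq_default _ _ (by simp; omega)]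
  · simp [Tp.act, Tp.wr, Move.apply]

theorem Tp.fw_fw {Γ : Type} (t : Tp Γ) (a b : ℕ) : (t.fw a).fw b = t.fw (a + b) := by
  simp [Tp.fw, Nat.add_assoc]

theorem Tp.bw_bw {Γ : Type} (t : Tp Γ) (a b : ℕ) : (t.bw a).bw b = t.bw (a + b) := by
  simp [Tp.bw, Nat.sub_sub]

theorem Tp.sl_add {Γ : Type} (t : Tp Γ) (a b : ℕ) : t.sl (a + b) = t.sl a ++ (t.fw a).sl b := by
  simp only [Tp.sl, Tp.fw, List.range_add, List.map_append, List.map_map]
  congr 1
  apply List.map_congr_left
  intro x _
  simp [Nat.add_assoc]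

theorem Tp.sl_length {Γ : Type} (t : Tp Γ) (a : ℕ) : (t.sl a).length = a := by simp [Tp.sl]

/-! ### effects on the family of main tapes -/

/-- apply `f` to tape `k` -/
def onT {Γ : Type} (k : κ) (f : Tp Γ → Tp Γ) (s : κ → Tp Γ) : κ → Tp Γ :=
  Function.update s k (f (s k))

theorem onT_same {Γ : Type} (k : κ) (f : Tp Γ → Tp Γ) (s : κ → Tp Γ) : onT k f s k = f (s k) := by
  simp [onT]

theorem onT_ne {Γ : Type} {k k' : κ} (h : k' ≠ k) (f : Tp Γ → Tp Γ) (s : κ → Tp Γ) :
    onT k f s k' = s k' := by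
  simp [onT, Function.update_of_ne h]

theorem onT_onT {Γ : Type} (k : κ) (f g : Tp Γ → Tp Γ) (s : κ → Tp Γ) :
    onT k f (onT k g s) = onT k (fun t => f (g t)) s := by
  simp [onT]

theorem onT_iterate {Γ : Type} (k : κ) (f : Tp Γ → Tp Γ) (m : ℕ) (s : κ → Tp Γ) :
    (onT k f)^[m] s = onT k (f^[m]) s := by
  induction m generalizing s with
  | zero => simp [onT]
  | succ m ih =>
    rw [Function.iterate_succ_apply, ih, onT_onT]
    rfl

/-- copy `a` symbols from tape `i` to tape `j` -/
def cpy {Γ : Type} (i j : κ) (a : ℕ) (s : κ → Tp Γ) : κ → Tp Γ :=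
  onT i (fun t => t.fw a) (onT j (fun t => t.wr ((s i).sl a)) s)

theorem cpy_cpy {Γ : Type} {i j : κ} (hij : i ≠ j) (a b : ℕ) (s : κ → Tp Γ) :
    cpy i j b (cpy i j a s) = cpy i j (a + b) s := by
  funext k
  by_cases hi : k = i
  · subst hi
    simp [cpy, onT_same, onT_ne hij, Tp.fw_fw]
  · by_cases hj : k = j
    · subst hj
      simp [cpy, onT_same, onT_ne hi, onT_ne hij, Tp.wr_wr, Tp.sl_add]
    · simp [cpy, onT_ne hi, onT_ne hj]

theorem cpy_zero {Γ : Type} (i j : κ) (s : κ → Tp Γ) : cpy i j 0 s = s := by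
  funext k
  by_cases hi : k = i
  · subst hi
    by_cases hj : k = j
    · subst hj
      simp [cpy, onT_same, Tp.sl, Tp.wr_nil, Tp.fw]
    · simp [cpy, onT_same, onT_ne hj, Tp.fw]
  · by_cases hj : k = j
    · subst hj
      simp [cpy, onT_same, onT_ne hi, Tp.sl, Tp.wr_nil]
    · simp [cpy, onT_ne hi, onT_ne hj]

theorem cpy_iterate {Γ : Type} {i j : κ} (hij : i ≠ j) (a m : ℕ) (s : κ → Tp Γ) :
    (cpy i j a)^[m] s = cpy i j (m * a) s := by
  induction m with
  | zero => simp [cpy_zero]
  | succ m ih =>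
    rw [Function.iterate_succ_apply', ih, cpy_cpy hij]
    congr 1
    ring

/-! ### the machines -/

/-- move the head of main tape `k` -/
def mvK (k : κ) (m : Move) : PM (ρ ⊕ κ) (S × Bool) :=
  actK (fun a => (a, fun k' => if k' = k then m else Move.stay))

/-- write `g` on tape `k` and move right -/
def pushK (k : κ) (g : S × Bool) : PM (ρ ⊕ κ) (S × Bool) :=
  actK (fun a => (Function.update a k g, fun k' => if k' = k then Move.right else Move.stay))

/-- copy one symbol from tape `i` to tape `j`, both heads move right -/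
def cpK (i j : κ) : PM (ρ ⊕ κ) (S × Bool) :=
  actK (fun a => (Function.update a j (a i),
    fun k' => if k' = i ∨ k' = j then Move.right else Move.stay))

theorem doesM_mvK_right (len : ρ → ℕ) (k : κ) :
    DoesM (S := S) len (mvK k Move.right) [] (onT k (fun t => t.fw 1)) 1 := by
  refine (doesM_actK len _).congr (fun s => ?_)
  funext k'
  by_cases h : k' = k
  · subst h
    simp only [actE, if_true, onT_same]
    apply Tp.ext'
    · simp [Tp.act, Tp.fw, rd, Tp.rd]
    · simp [Tp.act, Tp.fw, Move.apply]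
  · simp only [actE, if_neg h, onT_ne h]
    exact Tp.act_rd_stay _

theorem doesM_mvK_left (len : ρ → ℕ) (k : κ) :
    DoesM (S := S) len (mvK k Move.left) [] (onT k (fun t => t.bw 1)) 1 := by
  refine (doesM_actK len _).congr (fun s => ?_)
  funext k'
  by_cases h : k' = k
  · subst h
    simp only [actE, if_true, onT_same]
    apply Tp.ext'
    · simp [Tp.act, Tp.bw, rd, Tp.rd]
    · simp [Tp.act, Tp.bw, Move.apply]
  · simp only [actE, if_neg h, onT_ne h]
    exact Tp.act_rd_stay _

theorem doesM_pushK (len : ρ → ℕ) (k : κ) (g : S × Bool) :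
    DoesM len (pushK k g) [] (onT k (fun t => t.wr [g])) 1 := by
  refine (doesM_actK len _).congr (fun s => ?_)
  funext k'
  by_cases h : k' = k
  · subst h
    simp only [actE, if_true, onT_same, Function.update_self]
    exact Tp.act_right _ _
  · simp only [actE, if_neg h, onT_ne h, Function.update_of_ne h]
    exact Tp.act_rd_stay _

theorem doesM_cpK (len : ρ → ℕ) {i j : κ} (hij : i ≠ j) :
    DoesM (S := S) len (cpK i j) [] (cpy i j 1) 1 := by
  refine (doesM_actK len _).congr (fun s => ?_)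
  funext k'
  by_cases hi : k' = i
  · subst hi
    simp only [actE, true_or, if_true, cpy, onT_same, onT_ne hij, Function.update_of_ne hij]
    apply Tp.ext'
    · simp [Tp.act, Tp.fw, rd, Tp.rd]
    · simp [Tp.act, Tp.fw, Move.apply]
  · by_cases hj : k' = j
    · subst hj
      simp only [actE, or_true, if_true, cpy, onT_same, onT_ne hi, Function.update_self]
      rw [Tp.act_right]
      simp [Tp.sl, rd, Tp.rd]
    · simp only [actE, hi, hj, or_self, if_false, cpy, onT_ne hi, onT_ne hj,
        Function.update_of_ne hj]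
      exact Tp.act_rd_stay _

end Vale.Agent.P338.Red
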