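import Vale.Agent.P338.Defs

/-!
# P338 reduction: machines with an exit, and combinators

A `PM ι Γ` is a finite control acting on tapes indexed by `ι` over the alphabet `Γ`; every step
reads the symbols under the heads, writes, moves, and either goes to a new control state or exits.
-/

namespace Vale.Agent.P338.Red

open Vale.Agent.P338

/-- one tape: contents and head position -/
structure Tp (Γ : Type) where
  c : ℕ → Γ
  h : ℕ

@[ext] theorem Tp.ext' {Γ : Type} {a b : Tp Γ} (hc : a.c = b.c) (hh : a.h = b.h) : a = b := by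
  cases a; cases b; simp_all

/-- the symbol under the head -/
def Tp.rd {Γ : Type} (t : Tp Γ) : Γ := t.c t.h

/-- write and move -/
def Tp.act {Γ : Type} (t : Tp Γ) (w : Γ) (m : Move) : Tp Γ :=
  ⟨Function.update t.c t.h w, m.apply t.h⟩

/-- machines with an exit -/
structure PM (ι Γ : Type) where
  Q : Type
  [fin : Fintype Q]
  start : Q
  δ : Q → (ι → Γ) → Option Q × (ι → Γ) × (ι → Move)

variable {ι Γ : Type}

/-- symbols read -/
def rd (s : ι → Tp Γ) : ι → Γ := fun i => (s i).rd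

/-- tapes after one step from control state `q` -/
def PM.nxt (M : PM ι Γ) (q : M.Q) (s : ι → Tp Γ) : ι → Tp Γ :=
  fun i => (s i).act ((M.δ q (rd s)).2.1 i) ((M.δ q (rd s)).2.2 i)

/-- from control state `q` and tapes `s` the machine exits after exactly `t` steps with tapes
`s'` -/
inductive PM.From (M : PM ι Γ) : M.Q → (ι → Tp Γ) → ℕ → (ι → Tp Γ) → Prop
  | exit (q s) (h : (M.δ q (rd s)).1 = none) : PM.From M q s 1 (M.nxt q s)
  | step (q s q' t s') (h : (M.δ q (rd s)).1 = some q') (h' : PM.From M q' (M.nxt q s) t s') :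
      PM.From M q s (t + 1) s'

/-- started on tapes `s` the machine exits after exactly `t` steps with tapes `s'` -/
def PM.Reaches (M : PM ι Γ) (s : ι → Tp Γ) (t : ℕ) (s' : ι → Tp Γ) : Prop := M.From M.start s t s'

/-- exits within `T` steps -/
def PM.RT (M : PM ι Γ) (s : ι → Tp Γ) (T : ℕ) (s' : ι → Tp Γ) : Prop :=
  ∃ t, t ≤ T ∧ M.Reaches s t s'

theorem PM.RT.mono {M : PM ι Γ} {s s' : ι → Tp Γ} {T T' : ℕ} (h : M.RT s T s') (hT : T ≤ T') :
    M.RT s T' s' := by
  obtain ⟨t, ht, hr⟩ := h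
  exact ⟨t, le_trans ht hT, hr⟩

/-! ### combinators -/

/-- a single step -/
def act (f : (ι → Γ) → (ι → Γ) × (ι → Move)) : PM ι Γ where
  Q := Unit
  start := ()
  δ := fun _ a => (none, f a)

theorem act_reaches (f : (ι → Γ) → (ι → Γ) × (ι → Move)) (s : ι → Tp Γ) :
    (act f).Reaches s 1 (fun i => (s i).act ((f (rd s)).1 i) ((f (rd s)).2 i)) :=
  PM.From.exit (M := act f) () s rfl

/-- sequential composition -/
def seq (M₁ M₂ : PM ι Γ) : PM ι Γ :=
  letI := M₁.fin
  letI := M₂.fin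
  { Q := M₁.Q ⊕ M₂.Q
    start := Sum.inl M₁.start
    δ := fun q a =>
      match q with
      | Sum.inl q₁ =>
        match (M₁.δ q₁ a).1 with
        | some q' => (some (Sum.inl q'), (M₁.δ q₁ a).2)
        | none => (some (Sum.inr M₂.start), (M₁.δ q₁ a).2)
      | Sum.inr q₂ => ((M₂.δ q₂ a).1.map Sum.inr, (M₂.δ q₂ a).2) }

theorem seq_from_inr (M₁ M₂ : PM ι Γ) {q : M₂.Q} {s : ι → Tp Γ} {t : ℕ} {s' : ι → Tp Γ}
    (h : M₂.From q s t s') : (seq M₁ M₂).From (Sum.inr q) s t s' := by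
  induction h with
  | exit q s h =>
    have h1 : ((seq M₁ M₂).δ (Sum.inr q) (rd s)).1 = none := by
      simp [seq, h]
    exact PM.From.exit (M := seq M₁ M₂) (Sum.inr q) s h1
  | step q s q' t s' h _ ih =>
    have h1 : ((seq M₁ M₂).δ (Sum.inr q) (rd s)).1 = some (Sum.inr q') := by
      simp [seq, h]
    exact PM.From.step (M := seq M₁ M₂) (Sum.inr q) s (Sum.inr q') t s' h1 ih

theorem seq_from_inl (M₁ M₂ : PM ι Γ) {q : M₁.Q} {s : ι → Tp Γ} {t₁ : ℕ} {s₁ : ι → Tp Γ}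
    (h : M₁.From q s t₁ s₁) {t₂ : ℕ} {s₂ : ι → Tp Γ} (h₂ : M₂.Reaches s₁ t₂ s₂) :
    (seq M₁ M₂).From (Sum.inl q) s (t₁ + t₂) s₂ := by
  induction h with
  | exit q s h =>
    have h1 : ((seq M₁ M₂).δ (Sum.inl q) (rd s)).1 = some (Sum.inr M₂.start) := by
      simp [seq, h]
    have h2 : (seq M₁ M₂).nxt (Sum.inl q) s = M₁.nxt q s := by
      funext i
      simp [PM.nxt, seq, h]
    have := PM.From.step (M := seq M₁ M₂) (Sum.inl q) s (Sum.inr M₂.start) t₂ s₂ h1
      (by rw [h2]; exact seq_from_inr M₁ M₂ h₂)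
    rw [Nat.add_comm]
    exact this
  | step q s q' t s' h _ ih =>
    have h1 : ((seq M₁ M₂).δ (Sum.inl q) (rd s)).1 = some (Sum.inl q') := by
      simp [seq, h]
    have h2 : (seq M₁ M₂).nxt (Sum.inl q) s = M₁.nxt q s := by
      funext i
      simp [PM.nxt, seq, h]
    have := PM.From.step (M := seq M₁ M₂) (Sum.inl q) s (Sum.inl q') (t + t₂) s₂ h1
      (by rw [h2]; exact ih h₂)
    rw [Nat.add_right_comm]
    exact this

theorem seq_reaches {M₁ M₂ : PM ι Γ} {s s₁ s₂ : ι → Tp Γ} {t₁ t₂ : ℕ}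
    (h₁ : M₁.Reaches s t₁ s₁) (h₂ : M₂.Reaches s₁ t₂ s₂) :
    (seq M₁ M₂).Reaches s (t₁ + t₂) s₂ :=
  seq_from_inl M₁ M₂ h₁ h₂

theorem seq_rt {M₁ M₂ : PM ι Γ} {s s₁ s₂ : ι → Tp Γ} {T₁ T₂ : ℕ}
    (h₁ : M₁.RT s T₁ s₁) (h₂ : M₂.RT s₁ T₂ s₂) : (seq M₁ M₂).RT s (T₁ + T₂) s₂ := by
  obtain ⟨t₁, ht₁, hr₁⟩ := h₁
  obtain ⟨t₂, ht₂, hr₂⟩ := h₂
  exact ⟨t₁ + t₂, by omega, seq_reaches hr₁ hr₂⟩

theorem Tp.act_rd_stay (t : Tp Γ) : t.act t.rd Move.stay = t := by
  apply Tp.ext'
  · simp [Tp.act, Tp.rd]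
  · simp [Tp.act, Move.apply]

open Classical in
/-- `while c do M` (each test costs one step) -/
noncomputable def loop (c : (ι → Γ) → Prop) (M : PM ι Γ) : PM ι Γ :=
  letI := M.fin
  { Q := Option M.Q
    start := none
    δ := fun q a =>
      match q with
      | none => if c a then (some (some M.start), a, fun _ => Move.stay)
                else (none, a, fun _ => Move.stay)
      | some q₁ =>
        match (M.δ q₁ a).1 with
        | some q' => (some (some q'), (M.δ q₁ a).2)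
        | none => (some none, (M.δ q₁ a).2) }

theorem loop_nxt_none (c : (ι → Γ) → Prop) (M : PM ι Γ) (s : ι → Tp Γ) :
    (loop c M).nxt none s = s := by
  funext i
  by_cases h : c (rd s)
  · simp only [PM.nxt, loop, h, if_true]
    exact Tp.act_rd_stay (s i)
  · simp only [PM.nxt, loop, h, if_false]
    exact Tp.act_rd_stay (s i)

theorem loop_exit {c : (ι → Γ) → Prop} {M : PM ι Γ} {s : ι → Tp Γ} (h : ¬ c (rd s)) :
    (loop c M).Reaches s 1 s := by
  have h1 : ((loop c M).δ none (rd s)).1 = none := by simp [loop, h]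
  have := PM.From.exit (M := loop c M) none s h1
  rw [loop_nxt_none] at this
  exact this

theorem loop_from_some (c : (ι → Γ) → Prop) (M : PM ι Γ) {q : M.Q} {s : ι → Tp Γ} {t₁ : ℕ}
    {s₁ : ι → Tp Γ} (h : M.From q s t₁ s₁) {t₂ : ℕ} {s₂ : ι → Tp Γ}
    (h₂ : (loop c M).Reaches s₁ t₂ s₂) : (loop c M).From (some q) s (t₁ + t₂) s₂ := by
  induction h with
  | exit q s h =>
    have h1 : ((loop c M).δ (some q) (rd s)).1 = some none := by simp [loop, h]
    have h2 : (loop c M).nxt (some q) s = M.nxt q s := by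
      funext i
      simp [PM.nxt, loop, h]
    have := PM.From.step (M := loop c M) (some q) s none t₂ s₂ h1 (by rw [h2]; exact h₂)
    rw [Nat.add_comm]
    exact this
  | step q s q' t s' h _ ih =>
    have h1 : ((loop c M).δ (some q) (rd s)).1 = some (some q') := by simp [loop, h]
    have h2 : (loop c M).nxt (some q) s = M.nxt q s := by
      funext i
      simp [PM.nxt, loop, h]
    have := PM.From.step (M := loop c M) (some q) s (some q') (t + t₂) s₂ h1
      (by rw [h2]; exact ih h₂)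
    rw [Nat.add_right_comm]
    exact this

theorem loop_iter {c : (ι → Γ) → Prop} {M : PM ι Γ} {s s₁ s₂ : ι → Tp Γ} {t₁ t₂ : ℕ}
    (h : c (rd s)) (h₁ : M.Reaches s t₁ s₁) (h₂ : (loop c M).Reaches s₁ t₂ s₂) :
    (loop c M).Reaches s (t₁ + t₂ + 1) s₂ := by
  have h1 : ((loop c M).δ none (rd s)).1 = some (some M.start) := by simp [loop, h]
  exact PM.From.step (M := loop c M) none s (some M.start) (t₁ + t₂) s₂ h1
    (by rw [loop_nxt_none]; exact loop_from_some c M h₁ h₂)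

/-- the basic rule for loops: an explicit sequence of states -/
theorem loop_rt {c : (ι → Γ) → Prop} {M : PM ι Γ} (n : ℕ) (F : ℕ → ι → Tp Γ) (τ : ℕ)
    (hc : ∀ j, j < n → c (rd (F j))) (hn : ¬ c (rd (F n)))
    (hb : ∀ j, j < n → M.RT (F j) τ (F (j + 1))) :
    (loop c M).RT (F 0) (n * (τ + 1) + 1) (F n) := by
  suffices H : ∀ k, k ≤ n → (loop c M).RT (F (n - k)) (k * (τ + 1) + 1) (F n) by
    have := H n le_rfl
    rwa [Nat.sub_self] at this
  intro k
  induction k with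
  | zero =>
    intro _
    exact ⟨1, by omega, loop_exit hn⟩
  | succ k ih =>
    intro hk
    obtain ⟨t₂, ht₂, hr₂⟩ := ih (by omega)
    obtain ⟨t₁, ht₁, hr₁⟩ := hb (n - (k + 1)) (by omega)
    have e : n - (k + 1) + 1 = n - k := by omega
    rw [e] at hr₁
    refine ⟨t₁ + t₂ + 1, ?_, loop_iter (hc _ (by omega)) hr₁ hr₂⟩
    have : (k + 1) * (τ + 1) = k * (τ + 1) + (τ + 1) := by ring
    omega

open Classical in
/-- `if c then M₁ else M₂` (the test costs one step) -/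
noncomputable def ite (c : (ι → Γ) → Prop) (M₁ M₂ : PM ι Γ) : PM ι Γ :=
  letI := M₁.fin
  letI := M₂.fin
  { Q := Option (M₁.Q ⊕ M₂.Q)
    start := none
    δ := fun q a =>
      match q with
      | none => if c a then (some (some (Sum.inl M₁.start)), a, fun _ => Move.stay)
                else (some (some (Sum.inr M₂.start)), a, fun _ => Move.stay)
      | some (Sum.inl q₁) => ((M₁.δ q₁ a).1.map (fun q' => some (Sum.inl q')), (M₁.δ q₁ a).2)
      | some (Sum.inr q₂) => ((M₂.δ q₂ a).1.map (fun q' => some (Sum.inr q')), (M₂.δ q₂ a).2) }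

theorem ite_nxt_none (c : (ι → Γ) → Prop) (M₁ M₂ : PM ι Γ) (s : ι → Tp Γ) :
    (ite c M₁ M₂).nxt none s = s := by
  funext i
  by_cases h : c (rd s)
  · simp only [PM.nxt, ite, h, if_true]
    exact Tp.act_rd_stay (s i)
  · simp only [PM.nxt, ite, h, if_false]
    exact Tp.act_rd_stay (s i)

theorem ite_from_inl (c : (ι → Γ) → Prop) (M₁ M₂ : PM ι Γ) {q : M₁.Q} {s : ι → Tp Γ} {t : ℕ}
    {s' : ι → Tp Γ} (h : M₁.From q s t s') : (ite c M₁ M₂).From (some (Sum.inl q)) s t s' := by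
  induction h with
  | exit q s h =>
    have h1 : ((ite c M₁ M₂).δ (some (Sum.inl q)) (rd s)).1 = none := by simp [ite, h]
    exact PM.From.exit (M := ite c M₁ M₂) (some (Sum.inl q)) s h1
  | step q s q' t s' h _ ih =>
    have h1 : ((ite c M₁ M₂).δ (some (Sum.inl q)) (rd s)).1 = some (some (Sum.inl q')) := by
      simp [ite, h]
    exact PM.From.step (M := ite c M₁ M₂) (some (Sum.inl q)) s (some (Sum.inl q')) t s' h1 ih

theorem ite_from_inr (c : (ι → Γ) → Prop) (M₁ M₂ : PM ι Γ) {q : M₂.Q} {s : ι → Tp Γ} {t : ℕ}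
    {s' : ι → Tp Γ} (h : M₂.From q s t s') : (ite c M₁ M₂).From (some (Sum.inr q)) s t s' := by
  induction h with
  | exit q s h =>
    have h1 : ((ite c M₁ M₂).δ (some (Sum.inr q)) (rd s)).1 = none := by simp [ite, h]
    exact PM.From.exit (M := ite c M₁ M₂) (some (Sum.inr q)) s h1
  | step q s q' t s' h _ ih =>
    have h1 : ((ite c M₁ M₂).δ (some (Sum.inr q)) (rd s)).1 = some (some (Sum.inr q')) := by
      simp [ite, h]
    exact PM.From.step (M := ite c M₁ M₂) (some (Sum.inr q)) s (some (Sum.inr q')) t s' h1 ih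

theorem ite_true {c : (ι → Γ) → Prop} {M₁ M₂ : PM ι Γ} {s s' : ι → Tp Γ} {t : ℕ}
    (h : c (rd s)) (h₁ : M₁.Reaches s t s') : (ite c M₁ M₂).Reaches s (t + 1) s' := by
  have h1 : ((ite c M₁ M₂).δ none (rd s)).1 = some (some (Sum.inl M₁.start)) := by simp [ite, h]
  exact PM.From.step (M := ite c M₁ M₂) none s _ t s' h1
    (by rw [ite_nxt_none]; exact ite_from_inl c M₁ M₂ h₁)

theorem ite_false {c : (ι → Γ) → Prop} {M₁ M₂ : PM ι Γ} {s s' : ι → Tp Γ} {t : ℕ}
    (h : ¬ c (rd s)) (h₂ : M₂.Reaches s t s') : (ite c M₁ M₂).Reaches s (t + 1) s' := by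
  have h1 : ((ite c M₁ M₂).δ none (rd s)).1 = some (some (Sum.inr M₂.start)) := by simp [ite, h]
  exact PM.From.step (M := ite c M₁ M₂) none s _ t s' h1
    (by rw [ite_nxt_none]; exact ite_from_inr c M₁ M₂ h₂)

theorem ite_true_rt {c : (ι → Γ) → Prop} {M₁ M₂ : PM ι Γ} {s s' : ι → Tp Γ} {T : ℕ}
    (h : c (rd s)) (h₁ : M₁.RT s T s') : (ite c M₁ M₂).RT s (T + 1) s' := by
  obtain ⟨t, ht, hr⟩ := h₁
  exact ⟨t + 1, by omega, ite_true h hr⟩

theorem ite_false_rt {c : (ι → Γ) → Prop} {M₁ M₂ : PM ι Γ} {s s' : ι → Tp Γ} {T : ℕ}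
    (h : ¬ c (rd s)) (h₂ : M₂.RT s T s') : (ite c M₁ M₂).RT s (T + 1) s' := by
  obtain ⟨t, ht, hr⟩ := h₂
  exact ⟨t + 1, by omega, ite_false h hr⟩

end Vale.Agent.P338.Red
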