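import Vale.Agent.P338.Red.Stream

/-!
# P338 reduction: primitive streaming machines
-/

set_option linter.unusedSectionVars false

namespace Vale.Agent.P338.Red

open Vale.Agent.P338

variable {ρ κ S : Type} [Alph S] [DecidableEq ρ] [DecidableEq κ]

theorem doesS_push (len : ρ → ℕ) {x i₁ i₂ i₃ : κ} (d : Dist4 x i₁ i₂ i₃) (g : S × Bool) :
    DoesS len (pushK x g) [] x i₁ i₂ i₃ 0 0 0 (fun _ _ _ => [g]) 1 := by
  refine (doesM_pushK len x g).congr (fun s => ?_)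
  apply ext4 (x := x) (i₁ := i₁) (i₂ := i₂) (i₃ := i₃)
  · rw [strm_x d, onT_same]
  · rw [strm_i1 d, onT_ne d.h1, Tp.fw_zero]
  · rw [strm_i2 d, onT_ne d.h2, Tp.fw_zero]
  · rw [strm_i3 d, onT_ne d.h3, Tp.fw_zero]
  · intro k a b c e
    rw [strm_other a b c e, onT_ne a]

theorem doesS_nop (len : ρ → ℕ) {x i₁ i₂ i₃ : κ} (d : Dist4 x i₁ i₂ i₃) :
    DoesS (S := S) len nop [] x i₁ i₂ i₃ 0 0 0 (fun _ _ _ => []) 1 :=
  (doesM_nop len).congr (fun s => (strm_id d s).symm)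

theorem doesS_cp1 (len : ρ → ℕ) {x i₁ i₂ i₃ : κ} (d : Dist4 x i₁ i₂ i₃) :
    DoesS (S := S) len (cpK i₁ x) [] x i₁ i₂ i₃ 1 0 0 (fun t₁ _ _ => [t₁.rd]) 1 := by
  refine (doesM_cpK len d.h1).congr (fun s => ?_)
  apply ext4 (x := x) (i₁ := i₁) (i₂ := i₂) (i₃ := i₃)
  · rw [strm_x d, cpy, onT_ne d.h1.symm, onT_same]
    simp [Tp.sl, Tp.rd]
  · rw [strm_i1 d, cpy, onT_same, onT_ne d.h1]
  · rw [strm_i2 d, cpy, onT_ne d.h12.symm, onT_ne d.h2, Tp.fw_zero]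
  · rw [strm_i3 d, cpy, onT_ne d.h13.symm, onT_ne d.h3, Tp.fw_zero]
  · intro k a b c e
    rw [strm_other a b c e, cpy, onT_ne b, onT_ne a]

theorem doesS_mv1 (len : ρ → ℕ) {x i₁ i₂ i₃ : κ} (d : Dist4 x i₁ i₂ i₃) :
    DoesS (S := S) len (mvK i₁ Move.right) [] x i₁ i₂ i₃ 1 0 0 (fun _ _ _ => []) 1 := by
  refine (doesM_mvK_right len i₁).congr (fun s => ?_)
  apply ext4 (x := x) (i₁ := i₁) (i₂ := i₂) (i₃ := i₃)
  · rw [strm_x d, onT_ne d.h1.symm, Tp.wr_nil]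
  · rw [strm_i1 d, onT_same]
  · rw [strm_i2 d, onT_ne d.h12.symm, Tp.fw_zero]
  · rw [strm_i3 d, onT_ne d.h13.symm, Tp.fw_zero]
  · intro k a b c e
    rw [strm_other a b c e, onT_ne b]

theorem doesS_mv2 (len : ρ → ℕ) {x i₁ i₂ i₃ : κ} (d : Dist4 x i₁ i₂ i₃) :
    DoesS (S := S) len (mvK i₂ Move.right) [] x i₁ i₂ i₃ 0 1 0 (fun _ _ _ => []) 1 := by
  refine (doesM_mvK_right len i₂).congr (fun s => ?_)
  apply ext4 (x := x) (i₁ := i₁) (i₂ := i₂) (i₃ := i₃)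
  · rw [strm_x d, onT_ne d.h2.symm, Tp.wr_nil]
  · rw [strm_i1 d, onT_ne d.h12, Tp.fw_zero]
  · rw [strm_i2 d, onT_same]
  · rw [strm_i3 d, onT_ne d.h23.symm, Tp.fw_zero]
  · intro k a b c e
    rw [strm_other a b c e, onT_ne c]

theorem doesS_mv3 (len : ρ → ℕ) {x i₁ i₂ i₃ : κ} (d : Dist4 x i₁ i₂ i₃) :
    DoesS (S := S) len (mvK i₃ Move.right) [] x i₁ i₂ i₃ 0 0 1 (fun _ _ _ => []) 1 := by
  refine (doesM_mvK_right len i₃).congr (fun s => ?_)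
  apply ext4 (x := x) (i₁ := i₁) (i₂ := i₂) (i₃ := i₃)
  · rw [strm_x d, onT_ne d.h3.symm, Tp.wr_nil]
  · rw [strm_i1 d, onT_ne d.h13, Tp.fw_zero]
  · rw [strm_i2 d, onT_ne d.h23, Tp.fw_zero]
  · rw [strm_i3 d, onT_same]
  · intro k a b c e
    rw [strm_other a b c e, onT_ne e]

open Classical in
/-- conditional on the symbol read on a tape `o`; both branches advance the inputs equally -/
theorem doesS_ite (len : ρ → ℕ) {x i₁ i₂ i₃ : κ} {M N : PM (ρ ⊕ κ) (S × Bool)} {U V : List ρ}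
    {a₁ a₂ a₃ : ℕ} {G H : Tp (S × Bool) → Tp (S × Bool) → Tp (S × Bool) → List (S × Bool)}
    {τ σ : ℕ} (c : (κ → S × Bool) → Prop)
    (c' : Tp (S × Bool) → Tp (S × Bool) → Tp (S × Bool) → Prop)
    (hc : ∀ s : κ → Tp (S × Bool), c (rd s) ↔ c' (s i₁) (s i₂) (s i₃))
    (h : DoesS len M U x i₁ i₂ i₃ a₁ a₂ a₃ G τ) (h' : DoesS len N V x i₁ i₂ i₃ a₁ a₂ a₃ H σ) :
    DoesS len (iteK c M N) (U ++ V) x i₁ i₂ i₃ a₁ a₂ a₃
      (fun t₁ t₂ t₃ => if c' t₁ t₂ t₃ then G t₁ t₂ t₃ else H t₁ t₂ t₃) (max τ σ + 1) := by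
  refine (doesM_iteK c h h').congr (fun s => ?_)
  by_cases h1 : c (rd s)
  · rw [if_pos h1]
    unfold strm
    simp only [if_pos ((hc s).1 h1)]
  · rw [if_neg h1]
    unfold strm
    simp only [if_neg (fun h2 => h1 ((hc s).2 h2))]

theorem doesS_forFirst {len : ρ → ℕ} {M₀ M₁ : PM (ρ ⊕ κ) (S × Bool)} {U₀ U₁ : List ρ}
    {x i₁ i₂ i₃ : κ} (d : Dist4 x i₁ i₂ i₃) {a₁ a₂ a₃ : ℕ}
    {G₀ G₁ : Tp (S × Bool) → Tp (S × Bool) → Tp (S × Bool) → List (S × Bool)} {τ₀ τ₁ : ℕ}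
    (r : ρ) (hr : 1 ≤ len r) (hU₀ : r ∉ U₀) (hU₁ : r ∉ U₁)
    (h₀ : DoesS len M₀ U₀ x i₁ i₂ i₃ a₁ a₂ a₃ G₀ τ₀)
    (h₁ : DoesS len M₁ U₁ x i₁ i₂ i₃ a₁ a₂ a₃ G₁ τ₁) :
    DoesS len (forFirst r M₀ M₁) (r :: (U₀ ++ U₁)) x i₁ i₂ i₃
      (len r * a₁) (len r * a₂) (len r * a₃)
      (fun t₁ t₂ t₃ => (List.range (len r)).flatMap
        (fun j => (if j = 0 then G₀ else G₁) (t₁.fw (j * a₁)) (t₂.fw (j * a₂)) (t₃.fw (j * a₃))))
      (len r * (max τ₀ τ₁ + 5) + 2) := by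
  refine (doesM_forFirst r hr hU₀ hU₁ h₀ h₁).congr (fun s => ?_)
  obtain ⟨m, hm⟩ : ∃ m, len r = m + 1 := ⟨len r - 1, by omega⟩
  rw [hm, Nat.add_sub_cancel, strm_iterate d, strm_comp d]
  have e : ∀ a : ℕ, a + m * a = (m + 1) * a := fun a => by ring
  rw [e, e, e]
  congr 1
  funext t₁ t₂ t₃
  rw [List.range_succ_eq_map, List.flatMap_cons, List.flatMap_map]
  simp only [if_true, Nat.zero_mul, Tp.fw_zero]
  congr 1
  apply List.flatMap_congr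
  intro j _
  simp only [Nat.succ_ne_zero, if_false, Tp.fw_fw]
  have e' : ∀ a : ℕ, a + j * a = (j + 1) * a := fun a => by ring
  rw [e', e', e']

end Vale.Agent.P338.Red
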