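import Vale.Agent.P338.Red.PM

/-!
# P338 reduction: ruler tapes, uniform loops, and the effect calculus `DoesM`

Tapes are indexed by `ρ ⊕ κ`: the tapes in `ρ` are read-only rulers (unary counters used to run
loops a fixed number of times), the tapes in `κ` are the main tapes.  The alphabet is `S × Bool`;
the Boolean is a mark.
-/

set_option linter.unusedSectionVars false

namespace Vale.Agent.P338.Red

open Vale.Agent.P338

/-- base alphabet: blank, two bits, separator -/
class Alph (S : Type) where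
  blank : S
  bit : Bool → S
  sep : S
  bit_injective : Function.Injective bit
  bit_ne_blank : ∀ b, bit b ≠ blank
  bit_ne_sep : ∀ b, bit b ≠ sep
  sep_ne_blank : sep ≠ blank

variable {ρ κ S : Type} [Alph S]

/-- blank symbol of the marked alphabet -/
def bl : S × Bool := (Alph.blank, false)
/-- plain bit -/
def bt (b : Bool) : S × Bool := (Alph.bit b, false)
/-- separator -/
def sp : S × Bool := (Alph.sep, false)

/-- contents of a ruler of length `m`: a marked one, then `m - 1` ones, then blanks -/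
def rulerC (m : ℕ) : ℕ → S × Bool := fun j =>
  if j = 0 then (Alph.bit true, true) else if j < m then bt true else bl

/-- all tapes: rulers with head positions `p`, and the main tapes `s` -/
def conc (len : ρ → ℕ) (p : ρ → ℕ) (s : κ → Tp (S × Bool)) : ρ ⊕ κ → Tp (S × Bool) :=
  Sum.elim (fun r => ⟨rulerC (len r), p r⟩) s

/-- a step acting on the main tapes only -/
def actK (f : (κ → S × Bool) → (κ → S × Bool) × (κ → Move)) : PM (ρ ⊕ κ) (S × Bool) :=
  act (fun a => (Sum.elim (fun r => a (Sum.inl r)) (f (fun k => a (Sum.inr k))).1,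
    Sum.elim (fun _ => Move.stay) (f (fun k => a (Sum.inr k))).2))

/-- effect of `actK` -/
def actE (f : (κ → S × Bool) → (κ → S × Bool) × (κ → Move)) (s : κ → Tp (S × Bool)) :
    κ → Tp (S × Bool) :=
  fun k => (s k).act ((f (rd s)).1 k) ((f (rd s)).2 k)

variable [DecidableEq ρ]

/-- move the head of a ruler -/
def mvRul (r : ρ) (m : Move) : PM (ρ ⊕ κ) (S × Bool) :=
  act (fun a => (a, Sum.elim (fun r' => if r' = r then m else Move.stay) (fun _ => Move.stay)))

/-- move the head of ruler `r` back to the marked cell `0` -/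
noncomputable def rewind (r : ρ) : PM (ρ ⊕ κ) (S × Bool) :=
  loop (fun a => (a (Sum.inl r)).2 = false) (mvRul r Move.left)

/-- run `M` once for every cell of the ruler `r` -/
noncomputable def forRuler (r : ρ) (M : PM (ρ ⊕ κ) (S × Bool)) : PM (ρ ⊕ κ) (S × Bool) :=
  seq (rewind r) (loop (fun a => a (Sum.inl r) ≠ bl) (seq M (mvRul r Move.right)))

/-- `M₀` for the first cell of the ruler, `M₁` for the others -/
noncomputable def forFirst (r : ρ) (M₀ M₁ : PM (ρ ⊕ κ) (S × Bool)) : PM (ρ ⊕ κ) (S × Bool) :=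
  forRuler r (ite (fun a => (a (Sum.inl r)).2 = true) M₀ M₁)

/-- one idle step -/
def nop : PM (ρ ⊕ κ) (S × Bool) := act (fun a => (a, fun _ => Move.stay))

/-- `c` copies of `M` -/
def rep : ℕ → PM (ρ ⊕ κ) (S × Bool) → PM (ρ ⊕ κ) (S × Bool)
  | 0, _ => nop
  | c + 1, M => seq M (rep c M)

/-- `if c then M₁ else M₂` for a condition on the main tapes -/
noncomputable def iteK (c : (κ → S × Bool) → Prop) (M₁ M₂ : PM (ρ ⊕ κ) (S × Bool)) :
    PM (ρ ⊕ κ) (S × Bool) :=
  ite (fun a => c (fun k => a (Sum.inr k))) M₁ M₂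

/-- The effect calculus: on all ruler positions within range, `M` exits within `τ` steps, changes
the main tapes by `E`, moves only the rulers in `U` and keeps all rulers within range. -/
def DoesM (len : ρ → ℕ) (M : PM (ρ ⊕ κ) (S × Bool)) (U : List ρ)
    (E : (κ → Tp (S × Bool)) → κ → Tp (S × Bool)) (τ : ℕ) : Prop :=
  ∀ p s, (∀ r, p r ≤ len r) → ∃ p', (∀ r, p' r ≤ len r) ∧ (∀ r, r ∉ U → p' r = p r) ∧
    M.RT (conc len p s) τ (conc len p' (E s))

theorem rd_conc_inr (len : ρ → ℕ) (p : ρ → ℕ) (s : κ → Tp (S × Bool)) :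
    (fun k => rd (conc len p s) (Sum.inr k)) = rd s := rfl

theorem rd_conc_inl (len : ρ → ℕ) (p : ρ → ℕ) (s : κ → Tp (S × Bool)) (r : ρ) :
    rd (conc len p s) (Sum.inl r) = rulerC (len r) (p r) := rfl

theorem DoesM.mono {len : ρ → ℕ} {M : PM (ρ ⊕ κ) (S × Bool)} {U U' : List ρ}
    {E : (κ → Tp (S × Bool)) → κ → Tp (S × Bool)} {τ τ' : ℕ} (h : DoesM len M U E τ)
    (hU : ∀ r, r ∈ U → r ∈ U') (hτ : τ ≤ τ') : DoesM len M U' E τ' := by
  intro p s hp
  obtain ⟨p', h1, h2, h3⟩ := h p s hp
  exact ⟨p', h1, fun r hr => h2 r (fun h' => hr (hU r h')), h3.mono hτ⟩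

theorem DoesM.congr {len : ρ → ℕ} {M : PM (ρ ⊕ κ) (S × Bool)} {U : List ρ}
    {E E' : (κ → Tp (S × Bool)) → κ → Tp (S × Bool)} {τ : ℕ} (h : DoesM len M U E τ)
    (hE : ∀ s, E s = E' s) : DoesM len M U E' τ := by
  intro p s hp
  obtain ⟨p', h1, h2, h3⟩ := h p s hp
  exact ⟨p', h1, h2, by rw [← hE]; exact h3⟩

theorem doesM_actK (len : ρ → ℕ) (f : (κ → S × Bool) → (κ → S × Bool) × (κ → Move)) :
    DoesM len (actK f) [] (actE f) 1 := by
  intro p s hp
  refine ⟨p, hp, fun _ _ => rfl, 1, le_rfl, ?_⟩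
  have h := act_reaches (fun a : ρ ⊕ κ → S × Bool =>
    ((Sum.elim (fun r => a (Sum.inl r)) (f (fun k => a (Sum.inr k))).1 : ρ ⊕ κ → S × Bool),
    (Sum.elim (fun _ => Move.stay) (f (fun k => a (Sum.inr k))).2 : ρ ⊕ κ → Move))) (conc len p s)
  have e : (fun i => ((conc len p s) i).act
      ((Sum.elim (fun r => rd (conc len p s) (Sum.inl r))
        (f (fun k => rd (conc len p s) (Sum.inr k))).1 : ρ ⊕ κ → S × Bool) i)
      ((Sum.elim (fun _ => Move.stay)
        (f (fun k => rd (conc len p s) (Sum.inr k))).2 : ρ ⊕ κ → Move) i))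
      = conc len p (actE f s) := by
    funext i
    rcases i with r | k
    · exact Tp.act_rd_stay _
    · rfl
  rw [← e]
  exact h

theorem doesM_nop (len : ρ → ℕ) : DoesM (κ := κ) (S := S) len nop [] id 1 := by
  intro p s hp
  refine ⟨p, hp, fun _ _ => rfl, 1, le_rfl, ?_⟩
  have h := act_reaches (fun a : ρ ⊕ κ → S × Bool => (a, fun _ => Move.stay)) (conc len p s)
  have e : (fun i => ((conc len p s) i).act (rd (conc len p s) i) Move.stay)
      = conc len p (id s) := by
    funext i
    exact Tp.act_rd_stay _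
  rw [← e]
  exact h

theorem doesM_seq {len : ρ → ℕ} {M₁ M₂ : PM (ρ ⊕ κ) (S × Bool)} {U₁ U₂ : List ρ}
    {E₁ E₂ : (κ → Tp (S × Bool)) → κ → Tp (S × Bool)} {τ₁ τ₂ : ℕ}
    (h₁ : DoesM len M₁ U₁ E₁ τ₁) (h₂ : DoesM len M₂ U₂ E₂ τ₂) :
    DoesM len (seq M₁ M₂) (U₁ ++ U₂) (fun s => E₂ (E₁ s)) (τ₁ + τ₂) := by
  intro p s hp
  obtain ⟨p₁, a1, a2, a3⟩ := h₁ p s hp
  obtain ⟨p₂, b1, b2, b3⟩ := h₂ p₁ (E₁ s) a1
  refine ⟨p₂, b1, fun r hr => ?_, seq_rt a3 b3⟩
  rw [List.mem_append, not_or] at hr
  rw [b2 r hr.2, a2 r hr.1]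

theorem doesM_rep {len : ρ → ℕ} {M : PM (ρ ⊕ κ) (S × Bool)} {U : List ρ}
    {E : (κ → Tp (S × Bool)) → κ → Tp (S × Bool)} {τ : ℕ} (h : DoesM len M U E τ) (c : ℕ) :
    DoesM len (rep c M) U (E^[c]) (c * τ + 1) := by
  induction c with
  | zero =>
    have := doesM_nop (κ := κ) (S := S) len
    exact (this.mono (by simp) (by omega)).congr (fun s => rfl)
  | succ c ih =>
    have := doesM_seq h ih
    refine (this.mono (by simp) ?_).congr (fun s => ?_)
    · have : (c + 1) * τ = c * τ + τ := by ring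
      omega
    · rw [Function.iterate_succ_apply]

theorem doesM_iteK {len : ρ → ℕ} {M₁ M₂ : PM (ρ ⊕ κ) (S × Bool)} {U₁ U₂ : List ρ}
    {E₁ E₂ : (κ → Tp (S × Bool)) → κ → Tp (S × Bool)} {τ₁ τ₂ : ℕ} (c : (κ → S × Bool) → Prop)
    [DecidablePred c]
    (h₁ : DoesM len M₁ U₁ E₁ τ₁) (h₂ : DoesM len M₂ U₂ E₂ τ₂) :
    DoesM len (iteK c M₁ M₂) (U₁ ++ U₂) (fun s => if c (rd s) then E₁ s else E₂ s)
      (max τ₁ τ₂ + 1) := by
  intro p s hp
  by_cases hc : c (rd s)
  · obtain ⟨p₁, a1, a2, a3⟩ := h₁ p s hp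
    refine ⟨p₁, a1, fun r hr => a2 r (fun h => hr (List.mem_append_left _ h)), ?_⟩
    simp only [if_pos hc]
    exact ite_true_rt (c := fun a : ρ ⊕ κ → S × Bool => c (fun k => a (Sum.inr k))) hc
      (a3.mono (le_max_left _ _))
  · obtain ⟨p₁, a1, a2, a3⟩ := h₂ p s hp
    refine ⟨p₁, a1, fun r hr => a2 r (fun h => hr (List.mem_append_right _ h)), ?_⟩
    simp only [if_neg hc]
    exact ite_false_rt (c := fun a : ρ ⊕ κ → S × Bool => c (fun k => a (Sum.inr k))) hc
      (a3.mono (le_max_right _ _))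

/-! ### rulers -/

theorem rulerC_zero (m : ℕ) : (rulerC m 0 : S × Bool) = (Alph.bit true, true) := by
  simp [rulerC]

theorem rulerC_snd_pos (m j : ℕ) (hj : 0 < j) : (rulerC m j : S × Bool).2 = false := by
  unfold rulerC
  rw [if_neg (by omega)]
  split_ifs <;> rfl

theorem rulerC_ne_bl (m j : ℕ) (hj : j < m) : (rulerC m j : S × Bool) ≠ bl := by
  unfold rulerC
  split_ifs
  · intro h
    exact Alph.bit_ne_blank true (congrArg Prod.fst h)
  · intro h
    exact Alph.bit_ne_blank true (congrArg Prod.fst h)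

theorem rulerC_eq_bl (m : ℕ) (hm : 1 ≤ m) : (rulerC m m : S × Bool) = bl := by
  unfold rulerC
  rw [if_neg (by omega), if_neg (by omega)]

theorem mvRul_reaches (len : ρ → ℕ) (r : ρ) (m : Move) (p : ρ → ℕ) (s : κ → Tp (S × Bool)) :
    (mvRul r m).Reaches (conc len p s) 1 (conc len (Function.update p r (m.apply (p r))) s) := by
  have h := act_reaches (fun a : ρ ⊕ κ → S × Bool =>
    (a, (Sum.elim (fun r' => if r' = r then m else Move.stay) (fun _ => Move.stay) :
      ρ ⊕ κ → Move))) (conc len p s)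
  have e : (fun i => ((conc len p s) i).act (rd (conc len p s) i)
      ((Sum.elim (fun r' => if r' = r then m else Move.stay) (fun _ => Move.stay) :
      ρ ⊕ κ → Move) i)) = conc len (Function.update p r (m.apply (p r))) s := by
    funext i
    rcases i with r' | k
    · by_cases hr : r' = r
      · subst hr
        apply Tp.ext'
        · simp [conc, Tp.act, rd, Tp.rd]
        · simp [conc, Tp.act]
      · simp only [Sum.elim_inl, if_neg hr]
        rw [show rd (conc len p s) (Sum.inl r') = ((conc len p s) (Sum.inl r')).rd from rfl,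
          Tp.act_rd_stay]
        simp [conc, Function.update_of_ne hr]
    · exact Tp.act_rd_stay _
  rw [← e]
  exact h

theorem rewind_rt (len : ρ → ℕ) (r : ρ) (p : ρ → ℕ) (s : κ → Tp (S × Bool)) :
    (rewind r).RT (conc len p s) (p r * 2 + 1) (conc len (Function.update p r 0) s) := by
  have h := loop_rt (c := fun a : ρ ⊕ κ → S × Bool => (a (Sum.inl r)).2 = false)
    (M := mvRul r Move.left) (p r) (fun j => conc len (Function.update p r (p r - j)) s) 1
    (fun j hj => by
      rw [rd_conc_inl, Function.update_self]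
      exact rulerC_snd_pos _ _ (by omega))
    (by
      rw [rd_conc_inl, Function.update_self, Nat.sub_self, rulerC_zero]
      simp)
    (fun j hj => by
      refine ⟨1, le_rfl, ?_⟩
      have := mvRul_reaches len r Move.left (Function.update p r (p r - j)) s
      rw [Function.update_self, Function.update_idem] at this
      have e : Move.left.apply (p r - j) = p r - (j + 1) := by
        simp [Move.apply]; omega
      rw [e] at this
      exact this)
  simp only [Nat.sub_zero, Function.update_eq_self, Nat.sub_self] at h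
  exact h

/-- the general rule for `forRuler`: the body may depend on the position of the ruler -/
theorem forRuler_rule (len : ρ → ℕ) (r : ρ) (hr : 1 ≤ len r) (M : PM (ρ ⊕ κ) (S × Bool))
    (U : List ρ) (hU : r ∉ U) (E : ℕ → (κ → Tp (S × Bool)) → κ → Tp (S × Bool)) (τ : ℕ)
    (h : ∀ j, j < len r → ∀ p s, (∀ r', p r' ≤ len r') → p r = j →
      ∃ p', (∀ r', p' r' ≤ len r') ∧ (∀ r', r' ∉ U → p' r' = p r') ∧
        M.RT (conc len p s) τ (conc len p' (E j s))) :
    DoesM len (forRuler r M) (r :: U)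
      (fun s => Nat.rec (motive := fun _ => κ → Tp (S × Bool)) s (fun j x => E j x) (len r))
      (len r * (τ + 4) + 2) := by
  intro p s hp
  -- the states of the loop
  have key : ∀ j, j ≤ len r → ∃ pj : ρ → ℕ, (∀ r', pj r' ≤ len r') ∧ pj r = j ∧
      (∀ r', r' ∉ r :: U → pj r' = p r') ∧
      ∀ (T : ℕ) (sf : ρ ⊕ κ → Tp (S × Bool)),
        (loop (fun a : ρ ⊕ κ → S × Bool => a (Sum.inl r) ≠ bl) (seq M (mvRul r Move.right))).RT
          (conc len pj (Nat.rec (motive := fun _ => κ → Tp (S × Bool)) s (fun j x => E j x) j))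
          T sf →
        (loop (fun a : ρ ⊕ κ → S × Bool => a (Sum.inl r) ≠ bl) (seq M (mvRul r Move.right))).RT
          (conc len (Function.update p r 0) s) (j * (τ + 2) + T) sf := by
    intro j
    induction j with
    | zero =>
      intro _
      refine ⟨Function.update p r 0, ?_, by simp, ?_, ?_⟩
      · intro r'
        by_cases h' : r' = r
        · subst h'; simp
        · rw [Function.update_of_ne h']; exact hp r'
      · intro r' hr'
        rw [List.mem_cons, not_or] at hr'
        rw [Function.update_of_ne hr'.1]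
      · intro T sf hT
        simpa using hT
    | succ j ih =>
      intro hj
      obtain ⟨pj, a1, a2, a3, a4⟩ := ih (by omega)
      obtain ⟨p', b1, b2, b3⟩ := h j (by omega) pj _ a1 a2
      refine ⟨Function.update p' r (j + 1), ?_, by simp, ?_, ?_⟩
      · intro r'
        by_cases h' : r' = r
        · subst h'; simpa using hj
        · rw [Function.update_of_ne h']; exact b1 r'
      · intro r' hr'
        have hr'' := hr'
        rw [List.mem_cons, not_or] at hr'
        rw [Function.update_of_ne hr'.1, b2 r' hr'.2, a3 r' hr'']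
      · intro T sf hT
        obtain ⟨t, ht, hr3⟩ := hT
        obtain ⟨t', ht', hr4⟩ := b3
        have hmv := mvRul_reaches len r Move.right p' (E j
          (Nat.rec (motive := fun _ => κ → Tp (S × Bool)) s (fun j x => E j x) j))
        have e1 : Move.right.apply (p' r) = j + 1 := by
          rw [b2 r hU, a2]; rfl
        rw [e1] at hmv
        have hbody := seq_reaches hr4 hmv
        have hc : (fun a : ρ ⊕ κ → S × Bool => a (Sum.inl r) ≠ bl) (rd (conc len pj
            (Nat.rec (motive := fun _ => κ → Tp (S × Bool)) s (fun j x => E j x) j))) := by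
          show rd _ (Sum.inl r) ≠ bl
          rw [rd_conc_inl, a2]
          exact rulerC_ne_bl _ _ (by omega)
        have := loop_iter hc hbody hr3
        have h5 := a4 (t' + 1 + t + 1) sf ⟨_, le_rfl, this⟩
        refine h5.mono ?_
        have : (j + 1) * (τ + 2) = j * (τ + 2) + (τ + 2) := by ring
        omega
  obtain ⟨pf, c1, c2, c3, c4⟩ := key (len r) le_rfl
  refine ⟨pf, c1, c3, ?_⟩
  have hexit : (loop (fun a : ρ ⊕ κ → S × Bool => a (Sum.inl r) ≠ bl)
      (seq M (mvRul r Move.right))).RT (conc len pf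
        (Nat.rec (motive := fun _ => κ → Tp (S × Bool)) s (fun j x => E j x) (len r))) 1
      (conc len pf
        (Nat.rec (motive := fun _ => κ → Tp (S × Bool)) s (fun j x => E j x) (len r))) := by
    refine ⟨1, le_rfl, loop_exit ?_⟩
    show ¬ (rd _ (Sum.inl r) ≠ bl)
    rw [rd_conc_inl, c2, rulerC_eq_bl _ hr]
    simp
  have h6 := seq_rt (rewind_rt len r p s) (c4 1 _ hexit)
  refine h6.mono ?_
  have := hp r
  have e2 : len r * (τ + 4) = len r * (τ + 2) + len r * 2 := by ring
  have e3 : p r * 2 ≤ len r * 2 := by omega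
  omega

theorem doesM_forRuler {len : ρ → ℕ} {M : PM (ρ ⊕ κ) (S × Bool)} {U : List ρ}
    {E : (κ → Tp (S × Bool)) → κ → Tp (S × Bool)} {τ : ℕ} (r : ρ) (hr : 1 ≤ len r)
    (hU : r ∉ U) (h : DoesM len M U E τ) :
    DoesM len (forRuler r M) (r :: U) (E^[len r]) (len r * (τ + 4) + 2) := by
  have := forRuler_rule len r hr M U hU (fun _ => E) τ (fun j _ p s hp _ => h p s hp)
  refine this.congr (fun s => ?_)
  generalize len r = m
  induction m with
  | zero => rfl
  | succ m ih =>
    rw [Function.iterate_succ_apply']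
    exact congrArg E ih

theorem doesM_forFirst {len : ρ → ℕ} {M₀ M₁ : PM (ρ ⊕ κ) (S × Bool)} {U₀ U₁ : List ρ}
    {E₀ E₁ : (κ → Tp (S × Bool)) → κ → Tp (S × Bool)} {τ₀ τ₁ : ℕ} (r : ρ) (hr : 1 ≤ len r)
    (hU₀ : r ∉ U₀) (hU₁ : r ∉ U₁) (h₀ : DoesM len M₀ U₀ E₀ τ₀) (h₁ : DoesM len M₁ U₁ E₁ τ₁) :
    DoesM len (forFirst r M₀ M₁) (r :: (U₀ ++ U₁)) (fun s => E₁^[len r - 1] (E₀ s))
      (len r * (max τ₀ τ₁ + 5) + 2) := by
  have := forRuler_rule len r hr (ite (fun a => (a (Sum.inl r)).2 = true) M₀ M₁) (U₀ ++ U₁)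
    (by simp [hU₀, hU₁]) (fun j => if j = 0 then E₀ else E₁) (max τ₀ τ₁ + 1)
    (fun j _ p s hp hj => by
      by_cases hj0 : j = 0
      · obtain ⟨p', a1, a2, a3⟩ := h₀ p s hp
        refine ⟨p', a1, fun r' hr' => a2 r' (fun h => hr' (List.mem_append_left _ h)), ?_⟩
        rw [if_pos hj0]
        refine ite_true_rt ?_ (a3.mono (le_max_left _ _))
        rw [rd_conc_inl, hj, hj0, rulerC_zero]
      · obtain ⟨p', a1, a2, a3⟩ := h₁ p s hp
        refine ⟨p', a1, fun r' hr' => a2 r' (fun h => hr' (List.mem_append_right _ h)), ?_⟩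
        rw [if_neg hj0]
        refine ite_false_rt ?_ (a3.mono (le_max_right _ _))
        rw [rd_conc_inl, hj, rulerC_snd_pos _ _ (by omega)]
        simp)
  refine this.congr (fun s => ?_)
  obtain ⟨m, hm⟩ : ∃ m, len r = m + 1 := ⟨len r - 1, by omega⟩
  rw [hm, Nat.add_sub_cancel]
  clear hm
  induction m with
  | zero => rfl
  | succ m ih =>
    rw [Function.iterate_succ_apply']
    exact congrArg E₁ ih

end Vale.Agent.P338.Red
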