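import Vale.Agent.P338.Red.Ops

/-!
# P338 reduction: streaming effects

A streaming effect appends to the output tape `x` a list computed from three input tapes
`i₁ i₂ i₃`, whose heads only move forward by fixed amounts.  Such effects are closed under
composition and iteration.
-/

set_option linter.unusedSectionVars false

namespace Vale.Agent.P338.Red

open Vale.Agent.P338

variable {ρ κ S : Type} [Alph S] [DecidableEq ρ] [DecidableEq κ] {Γ : Type}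

/-- four distinct tapes: output and three inputs -/
structure Dist4 (x i₁ i₂ i₃ : κ) : Prop where
  h1 : i₁ ≠ x
  h2 : i₂ ≠ x
  h3 : i₃ ≠ x
  h12 : i₁ ≠ i₂
  h13 : i₁ ≠ i₃
  h23 : i₂ ≠ i₃

/-- the streaming effect -/
def strm (x i₁ i₂ i₃ : κ) (a₁ a₂ a₃ : ℕ) (G : Tp Γ → Tp Γ → Tp Γ → List Γ) (s : κ → Tp Γ) :
    κ → Tp Γ :=
  onT x (fun t => t.wr (G (s i₁) (s i₂) (s i₃)))
    (onT i₁ (fun t => t.fw a₁) (onT i₂ (fun t => t.fw a₂) (onT i₃ (fun t => t.fw a₃) s)))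

theorem strm_x {x i₁ i₂ i₃ : κ} (d : Dist4 x i₁ i₂ i₃) (a₁ a₂ a₃ : ℕ)
    (G : Tp Γ → Tp Γ → Tp Γ → List Γ) (s : κ → Tp Γ) :
    strm x i₁ i₂ i₃ a₁ a₂ a₃ G s x = (s x).wr (G (s i₁) (s i₂) (s i₃)) := by
  simp [strm, onT_same, onT_ne d.h1.symm, onT_ne d.h2.symm, onT_ne d.h3.symm]

theorem strm_i1 {x i₁ i₂ i₃ : κ} (d : Dist4 x i₁ i₂ i₃) (a₁ a₂ a₃ : ℕ)
    (G : Tp Γ → Tp Γ → Tp Γ → List Γ) (s : κ → Tp Γ) :
    strm x i₁ i₂ i₃ a₁ a₂ a₃ G s i₁ = (s i₁).fw a₁ := by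
  simp [strm, onT_same, onT_ne d.h1, onT_ne d.h12, onT_ne d.h13]

theorem strm_i2 {x i₁ i₂ i₃ : κ} (d : Dist4 x i₁ i₂ i₃) (a₁ a₂ a₃ : ℕ)
    (G : Tp Γ → Tp Γ → Tp Γ → List Γ) (s : κ → Tp Γ) :
    strm x i₁ i₂ i₃ a₁ a₂ a₃ G s i₂ = (s i₂).fw a₂ := by
  simp [strm, onT_same, onT_ne d.h2, onT_ne d.h12.symm, onT_ne d.h23]

theorem strm_i3 {x i₁ i₂ i₃ : κ} (d : Dist4 x i₁ i₂ i₃) (a₁ a₂ a₃ : ℕ)
    (G : Tp Γ → Tp Γ → Tp Γ → List Γ) (s : κ → Tp Γ) :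
    strm x i₁ i₂ i₃ a₁ a₂ a₃ G s i₃ = (s i₃).fw a₃ := by
  simp [strm, onT_same, onT_ne d.h3, onT_ne d.h13.symm, onT_ne d.h23.symm]

theorem strm_other {x i₁ i₂ i₃ k : κ} (hx : k ≠ x) (h1 : k ≠ i₁) (h2 : k ≠ i₂) (h3 : k ≠ i₃)
    (a₁ a₂ a₃ : ℕ) (G : Tp Γ → Tp Γ → Tp Γ → List Γ) (s : κ → Tp Γ) :
    strm x i₁ i₂ i₃ a₁ a₂ a₃ G s k = s k := by
  simp [strm, onT_ne hx, onT_ne h1, onT_ne h2, onT_ne h3]

/-- two states are equal if they agree on the four tapes and elsewhere -/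
theorem ext4 {x i₁ i₂ i₃ : κ} {s s' : κ → Tp Γ} (hx : s x = s' x) (h1 : s i₁ = s' i₁)
    (h2 : s i₂ = s' i₂) (h3 : s i₃ = s' i₃)
    (ho : ∀ k, k ≠ x → k ≠ i₁ → k ≠ i₂ → k ≠ i₃ → s k = s' k) : s = s' := by
  funext k
  by_cases a : k = x
  · subst a; exact hx
  by_cases b : k = i₁
  · subst b; exact h1
  by_cases c : k = i₂
  · subst c; exact h2
  by_cases e : k = i₃
  · subst e; exact h3
  exact ho k a b c e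

theorem strm_comp {x i₁ i₂ i₃ : κ} (d : Dist4 x i₁ i₂ i₃) (a₁ a₂ a₃ b₁ b₂ b₃ : ℕ)
    (G H : Tp Γ → Tp Γ → Tp Γ → List Γ) (s : κ → Tp Γ) :
    strm x i₁ i₂ i₃ b₁ b₂ b₃ H (strm x i₁ i₂ i₃ a₁ a₂ a₃ G s)
      = strm x i₁ i₂ i₃ (a₁ + b₁) (a₂ + b₂) (a₃ + b₃)
          (fun t₁ t₂ t₃ => G t₁ t₂ t₃ ++ H (t₁.fw a₁) (t₂.fw a₂) (t₃.fw a₃)) s := by
  apply ext4 (x := x) (i₁ := i₁) (i₂ := i₂) (i₃ := i₃)
  · rw [strm_x d, strm_x d, strm_x d, strm_i1 d, strm_i2 d, strm_i3 d, Tp.wr_wr]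
  · rw [strm_i1 d, strm_i1 d, strm_i1 d, Tp.fw_fw]
  · rw [strm_i2 d, strm_i2 d, strm_i2 d, Tp.fw_fw]
  · rw [strm_i3 d, strm_i3 d, strm_i3 d, Tp.fw_fw]
  · intro k a b c e
    rw [strm_other a b c e, strm_other a b c e, strm_other a b c e]

theorem Tp.fw_zero (t : Tp Γ) : t.fw 0 = t := by simp [Tp.fw]

theorem strm_id {x i₁ i₂ i₃ : κ} (d : Dist4 x i₁ i₂ i₃) (s : κ → Tp Γ) :
    strm x i₁ i₂ i₃ 0 0 0 (fun _ _ _ => ([] : List Γ)) s = s := by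
  apply ext4 (x := x) (i₁ := i₁) (i₂ := i₂) (i₃ := i₃)
  · rw [strm_x d, Tp.wr_nil]
  · rw [strm_i1 d, Tp.fw_zero]
  · rw [strm_i2 d, Tp.fw_zero]
  · rw [strm_i3 d, Tp.fw_zero]
  · intro k a b c e
    rw [strm_other a b c e]

theorem strm_iterate {x i₁ i₂ i₃ : κ} (d : Dist4 x i₁ i₂ i₃) (a₁ a₂ a₃ : ℕ)
    (G : Tp Γ → Tp Γ → Tp Γ → List Γ) (m : ℕ) (s : κ → Tp Γ) :
    (strm x i₁ i₂ i₃ a₁ a₂ a₃ G)^[m] s
      = strm x i₁ i₂ i₃ (m * a₁) (m * a₂) (m * a₃)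
          (fun t₁ t₂ t₃ => (List.range m).flatMap
            (fun j => G (t₁.fw (j * a₁)) (t₂.fw (j * a₂)) (t₃.fw (j * a₃)))) s := by
  induction m with
  | zero =>
    simp only [Function.iterate_zero, id, Nat.zero_mul, List.range_zero, List.flatMap_nil]
    exact (strm_id d s).symm
  | succ m ih =>
    rw [Function.iterate_succ_apply', ih, strm_comp d]
    have e : ∀ a : ℕ, m * a + a = (m + 1) * a := fun a => by ring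
    rw [e, e, e]
    congr 1
    funext t₁ t₂ t₃
    rw [List.range_succ, List.flatMap_append]
    simp

/-- `DoesM` for streaming effects -/
def DoesS (len : ρ → ℕ) (M : PM (ρ ⊕ κ) (S × Bool)) (U : List ρ) (x i₁ i₂ i₃ : κ)
    (a₁ a₂ a₃ : ℕ) (G : Tp (S × Bool) → Tp (S × Bool) → Tp (S × Bool) → List (S × Bool))
    (τ : ℕ) : Prop :=
  DoesM len M U (strm x i₁ i₂ i₃ a₁ a₂ a₃ G) τ

theorem doesS_seq {len : ρ → ℕ} {M N : PM (ρ ⊕ κ) (S × Bool)} {U V : List ρ} {x i₁ i₂ i₃ : κ}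
    (d : Dist4 x i₁ i₂ i₃) {a₁ a₂ a₃ b₁ b₂ b₃ : ℕ}
    {G H : Tp (S × Bool) → Tp (S × Bool) → Tp (S × Bool) → List (S × Bool)} {τ σ : ℕ}
    (h : DoesS len M U x i₁ i₂ i₃ a₁ a₂ a₃ G τ) (h' : DoesS len N V x i₁ i₂ i₃ b₁ b₂ b₃ H σ) :
    DoesS len (seq M N) (U ++ V) x i₁ i₂ i₃ (a₁ + b₁) (a₂ + b₂) (a₃ + b₃)
      (fun t₁ t₂ t₃ => G t₁ t₂ t₃ ++ H (t₁.fw a₁) (t₂.fw a₂) (t₃.fw a₃)) (τ + σ) :=
  (doesM_seq h h').congr (fun s => strm_comp d _ _ _ _ _ _ _ _ s)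

theorem doesS_forRuler {len : ρ → ℕ} {M : PM (ρ ⊕ κ) (S × Bool)} {U : List ρ} {x i₁ i₂ i₃ : κ}
    (d : Dist4 x i₁ i₂ i₃) {a₁ a₂ a₃ : ℕ}
    {G : Tp (S × Bool) → Tp (S × Bool) → Tp (S × Bool) → List (S × Bool)} {τ : ℕ}
    (r : ρ) (hr : 1 ≤ len r) (hU : r ∉ U) (h : DoesS len M U x i₁ i₂ i₃ a₁ a₂ a₃ G τ) :
    DoesS len (forRuler r M) (r :: U) x i₁ i₂ i₃ (len r * a₁) (len r * a₂) (len r * a₃)
      (fun t₁ t₂ t₃ => (List.range (len r)).flatMap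
        (fun j => G (t₁.fw (j * a₁)) (t₂.fw (j * a₂)) (t₃.fw (j * a₃))))
      (len r * (τ + 4) + 2) :=
  (doesM_forRuler r hr hU h).congr (fun s => strm_iterate d _ _ _ _ _ s)

theorem doesS_rep {len : ρ → ℕ} {M : PM (ρ ⊕ κ) (S × Bool)} {U : List ρ} {x i₁ i₂ i₃ : κ}
    (d : Dist4 x i₁ i₂ i₃) {a₁ a₂ a₃ : ℕ}
    {G : Tp (S × Bool) → Tp (S × Bool) → Tp (S × Bool) → List (S × Bool)} {τ : ℕ}
    (c : ℕ) (h : DoesS len M U x i₁ i₂ i₃ a₁ a₂ a₃ G τ) :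
    DoesS len (rep c M) U x i₁ i₂ i₃ (c * a₁) (c * a₂) (c * a₃)
      (fun t₁ t₂ t₃ => (List.range c).flatMap
        (fun j => G (t₁.fw (j * a₁)) (t₂.fw (j * a₂)) (t₃.fw (j * a₃))))
      (c * τ + 1) :=
  (doesM_rep h c).congr (fun s => strm_iterate d _ _ _ _ _ s)

/-- change of the presentation of a streaming effect -/
theorem DoesS.congr {len : ρ → ℕ} {M : PM (ρ ⊕ κ) (S × Bool)} {U U' : List ρ} {x i₁ i₂ i₃ : κ}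
    {a₁ a₂ a₃ b₁ b₂ b₃ : ℕ}
    {G H : Tp (S × Bool) → Tp (S × Bool) → Tp (S × Bool) → List (S × Bool)} {τ σ : ℕ}
    (h : DoesS len M U x i₁ i₂ i₃ a₁ a₂ a₃ G τ) (hU : ∀ r, r ∈ U → r ∈ U')
    (e₁ : a₁ = b₁) (e₂ : a₂ = b₂) (e₃ : a₃ = b₃) (hG : ∀ t₁ t₂ t₃, G t₁ t₂ t₃ = H t₁ t₂ t₃)
    (hτ : τ ≤ σ) : DoesS len M U' x i₁ i₂ i₃ b₁ b₂ b₃ H σ := by
  subst e₁ e₂ e₃
  have : G = H := by funext t₁ t₂ t₃; exact hG t₁ t₂ t₃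
  subst this
  exact DoesM.mono h hU hτ

end Vale.Agent.P338.Red
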